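import Vale.Agent.P078.Local.Jump.Basic

/-!
# Monotonicity of the resolvent functions at a site
-/

namespace Vale.Agent.P078.Local

variable {ι : Type*} [DecidableEq ι] {r : ℕ}
variable {T U : Finset ι} {h : ι → Fin r → ℝ} {Z Z' : ι → ℝ} {x : ι → ι → ℂ} {l u : ι}

/-- The Schur complements increase with the set. -/
theorem m_mono_set (hh : IsLaw T h) (hUT : U ⊆ T) (hl : l ∈ U) (hv : Valid (T.erase l) h Z x)
    (c : Fin r) : m U l h c Z x ≤ m T l h c Z x := by
  refine le_of_forall_gt_imp_ge_of_dense fun w hw => ?_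
  have key : ∀ S : Finset ι, m S l h c (Function.update Z l w) x = m S l h c Z x := fun S =>
    m_congr (fun _ _ _ => rfl) (fun a _ hal => by simp [Function.update_of_ne hal]) c
  have hT : Valid T (pure h l c) (Function.update Z l w) x :=
    (valid_pure_iff (hUT hl) hh c).2 ⟨(valid_congr (fun _ _ => rfl) fun a ha => by
      simp [Function.update_of_ne (Finset.ne_of_mem_erase ha)]).1 hv, by
        rw [key]; simpa using hw⟩
  have hU := ((valid_pure_iff hl (hh.mono hUT) c).1 (hT.subset (hh.pure l c) hUT)).2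
  rw [key] at hU
  simpa using hU.le

theorem sum_m_nonneg (hl : l ∈ T) (hh : IsLaw T h) (hv : Valid T h Z x) (hd : x l l = 0) :
    0 ≤ ∑ c, h l c * m T l h c Z x :=
  Finset.sum_nonneg fun c _ =>
    mul_nonneg ((hh l hl).1 c) (m_nonneg hl hh (hv.erase hh hl) hd c)

theorem tw_le (hl : l ∈ T) (hh : IsLaw T h) (hv : Valid T h Z x) (hd : x l l = 0) :
    tw T h Z x l ≤ Z l :=
  sub_le_self _ (sum_m_nonneg hl hh hv hd)

theorem Z_pos (hl : l ∈ T) (hh : IsLaw T h) (hv : Valid T h Z x) (hd : x l l = 0) : 0 < Z l :=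
  (tw_pos hl hh hv).trans_le (tw_le hl hh hv hd)

theorem Phi_eq_inv_tw (hl : l ∈ T) (hh : IsLaw T h) (hv : Valid T h Z x) :
    Phi T h Z x l = 1 / tw T h Z x l :=
  Phi_eq_inv hl hh ((hv.erase hh hl).pos (hh.mono (Finset.erase_subset _ _))).ne'

theorem inv_le_Phi (hl : l ∈ T) (hh : IsLaw T h) (hv : Valid T h Z x) (hd : x l l = 0) :
    1 / Z l ≤ Phi T h Z x l := by
  rw [Phi_eq_inv_tw hl hh hv]
  exact one_div_le_one_div_of_le (tw_pos hl hh hv) (tw_le hl hh hv hd)

/-- `t` increases at least as fast as `Z`. -/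
theorem tw_add_le (hl : l ∈ T) (hh : IsLaw T h) (hv : Valid T h Z x)
    (hle : ∀ a ∈ T, Z a ≤ Z' a) : tw T h Z x l + (Z' l - Z l) ≤ tw T h Z' x l := by
  have := Finset.sum_le_sum fun c (_ : c ∈ Finset.univ) => mul_le_mul_of_nonneg_left
    (m_antitone hl hh (hv.erase hh hl) (fun a ha _ => hle a ha) c) ((hh l hl).1 c)
  simp only [tw]
  linarith

theorem Phi_anti (hl : l ∈ T) (hh : IsLaw T h) (hv : Valid T h Z x)
    (hle : ∀ a ∈ T, Z a ≤ Z' a) : Phi T h Z' x l ≤ Phi T h Z x l := by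
  rw [Phi_eq_inv_tw hl hh hv, Phi_eq_inv_tw hl hh (hv.mono hh hle)]
  refine one_div_le_one_div_of_le (tw_pos hl hh hv) ?_
  linarith [tw_add_le hl hh hv hle, hle l hl]

theorem Phi_mono_set (hh : IsLaw T h) (hUT : U ⊆ T) (hl : l ∈ U) (hv : Valid T h Z x) :
    Phi U h Z x l ≤ Phi T h Z x l := by
  have hvU := hv.subset hh hUT
  rw [Phi_eq_inv_tw hl (hh.mono hUT) hvU, Phi_eq_inv_tw (hUT hl) hh hv]
  refine one_div_le_one_div_of_le (tw_pos (hUT hl) hh hv) ?_
  have := Finset.sum_le_sum fun c (_ : c ∈ Finset.univ) => mul_le_mul_of_nonneg_left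
    (m_mono_set hh hUT hl (hv.erase hh (hUT hl)) c) ((hh l (hUT hl)).1 c)
  simp only [tw]
  linarith

theorem Phi_le_inv_margin (hl : l ∈ T) (hh : IsLaw T h) {g : ℝ} (hg : 0 < g)
    (hv : Valid T h (fun a => Z a - g) x) : Phi T h Z x l ≤ 1 / g := by
  have hv' : Valid T h Z x := hv.mono hh fun a _ => by linarith
  rw [Phi_eq_inv_tw hl hh hv']
  refine one_div_le_one_div_of_le hg ?_
  have := tw_add_le (Z' := Z) hl hh hv fun a _ => by linarith
  linarith [tw_pos hl hh hv]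

end Vale.Agent.P078.Local
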