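import Vale.Agent.P078.Local.Stable.Glue
import Vale.Agent.P078.Local.Def.Slice

/-!
# The rows `W` of `log q` and the slopes of the Schur complements

`tw` is the reciprocal of `Phi` and `dm` minus the derivative of a Schur complement; `Phi` and `W`
are written through the data at a moving site, and `m_grad_le` is the gradient inequality.
-/

namespace Vale.Agent.P078.Local

variable {ι : Type*} [DecidableEq ι] {r : ℕ}

/-- `t_l = z_l - ∑ h_lc m_lc`. -/
noncomputable def tw (T : Finset ι) (h : ι → Fin r → ℝ) (Z : ι → ℝ) (x : ι → ι → ℂ) (l : ι) : ℝ :=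
  Z l - ∑ c, h l c * m T l h c Z x

/-- `d_u = -∂_u m_lc`. -/
noncomputable def dm (T : Finset ι) (l : ι) (h : ι → Fin r → ℝ) (c : Fin r) (u : ι) (Z : ι → ℝ)
    (x : ι → ι → ℂ) : ℝ :=
  (qR (T.erase u) (pure h l c) (Function.update Z l 0) x * qR (T.erase l) h Z x
      - qR T (pure h l c) (Function.update Z l 0) x * qR ((T.erase l).erase u) h Z x)
    / qR (T.erase l) h Z x ^ 2

variable {T : Finset ι} {h : ι → Fin r → ℝ} {Z : ι → ℝ} {x : ι → ι → ℂ} {l u w : ι}

theorem qR_congr {h' : ι → Fin r → ℝ} {Z' : ι → ℝ} {U : Finset ι} (hh : ∀ a ∈ U, h a = h' a)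
    (hZ : ∀ a ∈ U, Z a = Z' a) : qR U h Z x = qR U h' Z' x := by
  simp only [qR]
  rw [q_congr hh (z' := ofR Z') (fun a ha => by simp [ofR, hZ a ha]) (fun _ _ _ _ => rfl)]

theorem qR_pure_erase {v : ℝ} (c : Fin r) :
    qR (T.erase l) (pure h l c) (Function.update Z l v) x = qR (T.erase l) h Z x :=
  qR_congr (fun _ ha => by simp [Local.pure, Function.update_of_ne (Finset.ne_of_mem_erase ha)])
    fun _ ha => by simp [Function.update_of_ne (Finset.ne_of_mem_erase ha)]

/-- The affine expansion of `qR` at a site, in the `m`. -/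
theorem qR_split (hh : IsLaw T h) (hl : l ∈ T) :
    qR T h Z x = Z l * qR (T.erase l) h Z x
      + ∑ c, h l c * qR T (pure h l c) (Function.update Z l 0) x := by
  have h0 : qR T h (Function.update Z l 0) x
      = ∑ c, h l c * qR T (pure h l c) (Function.update Z l 0) x := by
    simp only [qR]
    rw [q_linear hl, Complex.re_sum]
    simp
  have := qR_update (Z := Z) (x := x) hl hh (Z l)
  rw [Function.update_eq_self] at this
  rw [this, h0]; ring

theorem W_comm (l u : ι) : W T h Z x l u = W T h Z x u l := by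
  rcases eq_or_ne l u with rfl | hne
  · rfl
  · simp [W, hne, Ne.symm hne, Finset.erase_right_comm (a := l), mul_comm]

theorem W_eq_sub (hne : l ≠ u) (hq : qR T h Z x ≠ 0) :
    W T h Z x l u = Phi T h Z x l * Phi T h Z x u
      - qR ((T.erase l).erase u) h Z x / qR T h Z x := by
  rw [W, if_neg hne]; simp only [Phi]; field_simp

theorem Phi_eq_inv (hl : l ∈ T) (hh : IsLaw T h) (hne : qR (T.erase l) h Z x ≠ 0) :
    Phi T h Z x l = 1 / tw T h Z x l := by
  rw [Phi, qR_eq hl hh hne, tw, div_mul_eq_div_div, div_self hne]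

theorem tw_pos (hl : l ∈ T) (hh : IsLaw T h) (hv : Valid T h Z x) : 0 < tw T h Z x l :=
  sub_pos.2 (sum_m_lt hl hh hv)

theorem Phi_pos (hl : l ∈ T) (hh : IsLaw T h) (hv : Valid T h Z x) : 0 < Phi T h Z x l :=
  div_pos ((hv.erase hh hl).pos (hh.mono (Finset.erase_subset _ _))) (hv.pos hh)

/-- Rayleigh: the rows are nonnegative. -/
theorem W_nonneg (hl : l ∈ T) (hu : u ∈ T) (hh : IsLaw T h) (hx : IsHerm x) :
    0 ≤ W T h Z x l u := by
  rcases eq_or_ne l u with rfl | hne
  · rw [W, if_pos rfl]; exact sq_nonneg _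
  · rw [W, if_neg hne]
    exact div_nonneg (sub_nonneg.2 (rayleigh hh hl hu hne hx Z)) (sq_nonneg _)

theorem Irow_nonneg (hl : l ∈ T) (hh : IsLaw T h) (hx : IsHerm x) : 0 ≤ Irow T h Z x l :=
  Finset.sum_nonneg fun _ hu => W_nonneg hl hu hh hx

/-- The slopes of the Schur complements are nonnegative. -/
theorem dm_nonneg (hl : l ∈ T) (hu : u ∈ T) (hne : l ≠ u) (hh : IsLaw T h) (hx : IsHerm x)
    (c : Fin r) : 0 ≤ dm T l h c u Z x := by
  refine div_nonneg ?_ (sq_nonneg _)
  have hR := rayleigh (hh.pure l c) hl hu hne hx (Function.update Z l 0)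
  rw [qR_pure_erase] at hR
  have e : qR ((T.erase l).erase u) (pure h l c) (Function.update Z l 0) x
      = qR ((T.erase l).erase u) h Z x := by
    refine qR_congr (fun a ha => ?_) fun a ha => ?_ <;>
      simp [Local.pure, Function.update_of_ne
        (Finset.ne_of_mem_erase (Finset.mem_of_mem_erase ha))]
  rw [e] at hR
  linarith

theorem qR_erase_split (hw : w ∈ T) (hwl : w ≠ l) (hh : IsLaw T h) :
    qR (T.erase l) h Z x = Z w * qR ((T.erase w).erase l) h Z x
      + ∑ c, h w c * qR (T.erase l) (pure h w c) (Function.update Z w 0) x := by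
  rw [qR_split (hh.mono (Finset.erase_subset _ _)) (Finset.mem_erase.2 ⟨hwl, hw⟩),
    Finset.erase_right_comm]

/-- `q_(T-l)` in terms of the moving site `w`. -/
theorem qR_erase_eq (hw : w ∈ T) (hwl : w ≠ l) (hh : IsLaw T h)
    (hne : qR (T.erase w) h Z x ≠ 0) :
    qR (T.erase l) h Z x = qR ((T.erase w).erase l) h Z x * tw T h Z x w
      + qR (T.erase w) h Z x * ∑ c, h w c * dm T w h c l Z x := by
  rw [qR_erase_split hw hwl hh, tw, mul_sub, Finset.mul_sum, Finset.mul_sum]
  have e : ∀ c, qR (T.erase w) h Z x * (h w c * dm T w h c l Z x)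
      = h w c * qR (T.erase l) (pure h w c) (Function.update Z w 0) x
        + qR ((T.erase w).erase l) h Z x * (h w c * m T w h c Z x) := by
    intro c
    simp only [dm, m]
    field_simp
    ring
  simp only [e, Finset.sum_add_distrib]
  ring

/-- `Φ_l` in terms of the moving site `w`. -/
theorem Phi_formula (hw : w ∈ T) (hwl : w ≠ l) (hh : IsLaw T h)
    (hne : qR (T.erase w) h Z x ≠ 0) (ht : tw T h Z x w ≠ 0) :
    Phi T h Z x l = Phi (T.erase w) h Z x l
      + (∑ c, h w c * dm T w h c l Z x) / tw T h Z x w := by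
  simp only [Phi]
  rw [qR_erase_eq hw hwl hh hne, qR_eq hw hh hne, ← tw]
  field_simp

/-- `W_wl` at the moving site. -/
theorem W_site (hw : w ∈ T) (_hl : l ∈ T) (hwl : w ≠ l) (hh : IsLaw T h)
    (hne : qR (T.erase w) h Z x ≠ 0) (ht : tw T h Z x w ≠ 0) :
    W T h Z x w l = (∑ c, h w c * dm T w h c l Z x) / tw T h Z x w ^ 2 := by
  rw [W_eq_sub hwl (by rw [qR_eq hw hh hne]; exact mul_ne_zero hne ht), Phi_eq_inv hw hh hne, Phi_formula hw hwl hh hne ht,
    qR_eq hw hh hne, ← tw]
  simp only [Phi]
  field_simp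
  ring

theorem W_self (hw : w ∈ T) (hh : IsLaw T h) (hne : qR (T.erase w) h Z x ≠ 0) :
    W T h Z x w w = 1 / tw T h Z x w ^ 2 := by
  rw [W, if_pos rfl, Phi_eq_inv hw hh hne, div_pow, one_pow]

/-- The derivative of `q` along a segment. -/
theorem hasDerivAt_qR (hh : IsLaw T h) (D : ι → ℝ) (hD : ∀ a ∉ T, D a = 0) (s : ℝ) :
    HasDerivAt (fun s : ℝ => qR T h (fun a => Z a + s * D a) x)
      (∑ a ∈ T, D a * qR (T.erase a) h (fun b => Z b + s * D b) x) s := by
  suffices key : ∀ (K U : Finset ι) (D : ι → ℝ) (Z : ι → ℝ), IsLaw U h → K ⊆ U →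
      (∀ a ∈ U, a ∉ K → D a = 0) →
      HasDerivAt (fun s : ℝ => qR U h (fun a => Z a + s * D a) x)
        (∑ a ∈ K, D a * qR (U.erase a) h (fun b => Z b + s * D b) x) s from
    key T T D Z hh subset_rfl fun a _ ha => hD a ha
  intro K
  induction K using Finset.induction_on with
  | empty =>
    intro U D Z _ _ hD
    have : (fun s : ℝ => qR U h (fun a => Z a + s * D a) x) = fun _ => qR U h Z x := by
      funext s
      exact qR_congr (fun _ _ => rfl) fun a ha => by simp [hD a ha (Finset.notMem_empty a)]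
    rw [this, Finset.sum_empty]
    exact hasDerivAt_const s _
  | @insert l K hlK IH =>
    intro U D Z hU hsub hD
    have hl : l ∈ U := hsub (Finset.mem_insert_self l K)
    have hKU : K ⊆ U.erase l := fun a ha =>
      Finset.mem_erase.2 ⟨fun he => hlK (he ▸ ha), hsub (Finset.mem_insert_of_mem ha)⟩
    have h1 := IH U (Function.update D l 0) (Function.update Z l 0) hU
      (fun a ha => hsub (Finset.mem_insert_of_mem ha)) fun a ha haK => by
        rcases eq_or_ne a l with rfl | hal
        · simp
        · rw [Function.update_of_ne hal]; exact hD a ha (by simp [hal, haK])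
    have h2 := IH (U.erase l) D Z (hU.mono (Finset.erase_subset _ _)) hKU fun a ha haK =>
      hD a (Finset.mem_of_mem_erase ha) (by simp [Finset.ne_of_mem_erase ha, haK])
    have e1 : ∀ s : ℝ, (fun a => Function.update Z l 0 a + s * Function.update D l 0 a)
        = Function.update (fun a => Z a + s * D a) l 0 := by
      intro s; funext a; rcases eq_or_ne a l with rfl | hal <;> simp [*]
    have h3 : HasDerivAt (fun s : ℝ => Z l + s * D l) (D l) s := by
      simpa using ((hasDerivAt_id s).mul_const (D l)).const_add (Z l)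
    have hsplit : (fun s : ℝ => qR U h (fun a => Z a + s * D a) x)
        = fun s => qR U h (fun a => Function.update Z l 0 a + s * Function.update D l 0 a) x
            + (Z l + s * D l) * qR (U.erase l) h (fun a => Z a + s * D a) x := by
      funext s
      rw [e1 s, ← qR_update hl hU, Function.update_eq_self_iff.2 rfl]
    rw [hsplit]
    refine (h1.add (h3.mul h2)).congr_deriv ?_
    rw [Finset.sum_insert hlK, Finset.mul_sum, e1 s]
    have e2 : ∀ a ∈ K, Function.update D l 0 a
          * qR (U.erase a) h (Function.update (fun a => Z a + s * D a) l 0) x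
        + (Z l + s * D l) * (D a * qR ((U.erase l).erase a) h (fun b => Z b + s * D b) x)
        = D a * qR (U.erase a) h (fun b => Z b + s * D b) x := by
      intro a ha
      have hal : a ≠ l := fun he => hlK (he ▸ ha)
      have := qR_update (Z := fun b => Z b + s * D b) (x := x)
        (Finset.mem_erase.2 ⟨hal.symm, hl⟩) (hU.mono (Finset.erase_subset a U)) (Z l + s * D l)
      rw [Function.update_eq_self_iff.2 rfl, Finset.erase_right_comm] at this
      rw [Function.update_of_ne hal, this]
      ring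
    rw [← Finset.sum_congr rfl e2, Finset.sum_add_distrib]
    ring

/-- The gradient inequality for the convex `m`. -/
theorem m_grad_le (hl : l ∈ T) (hh : IsLaw T h) {D : ι → ℝ} (hD : ∀ a ∉ T, D a = 0)
    (h1 : Valid (T.erase l) h Z x) (h2 : Valid (T.erase l) h (fun a => Z a + D a) x) (c : Fin r) :
    -∑ a ∈ T.erase l, D a * dm T l h c a Z x
      ≤ m T l h c (fun a => Z a + D a) x - m T l h c Z x := by
  set D' := Function.update D l 0 with hD'
  set f : ℝ → ℝ := fun s => m T l h c (fun a => Z a + s * D' a) x with hf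
  have hmeq : ∀ s : ℝ, f s = -qR T (pure h l c) (fun a => Function.update Z l 0 a + s * D' a) x
      / qR (T.erase l) h (fun a => Z a + s * D' a) x := by
    intro s
    simp only [hf, m]
    congr 3
    funext a; rcases eq_or_ne a l with rfl | hal <;> simp [*]
  have hne : qR (T.erase l) h (fun a => Z a + 0 * D' a) x ≠ 0 := by
    simpa using (h1.pos (hh.mono (Finset.erase_subset _ _))).ne'
  have hd1 := hasDerivAt_qR (Z := Function.update Z l 0) (x := x) (hh.pure l c) D' (fun a ha => by
    rcases eq_or_ne a l with rfl | hal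
    · simp [hD']
    · simp [hD', Function.update_of_ne hal, hD a ha]) 0
  have hd2 := hasDerivAt_qR (Z := Z) (x := x) (hh.mono (Finset.erase_subset l T)) D' (fun a ha => by
    rcases eq_or_ne a l with rfl | hal
    · simp [hD']
    · simp [hD', Function.update_of_ne hal, hD a (fun h' => ha (Finset.mem_erase.2 ⟨hal, h'⟩))]) 0
  have hd : HasDerivAt f (-∑ a ∈ T.erase l, D a * dm T l h c a Z x) 0 := by
    refine ((hd1.neg.div hd2 hne).congr_of_eventuallyEq
      (Filter.Eventually.of_forall hmeq)).congr_deriv ?_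
    simp only [zero_mul, add_zero, Pi.neg_apply]
    rw [← Finset.add_sum_erase T _ hl, hD', Function.update_self, zero_mul, zero_add]
    have e : ∀ a ∈ T.erase l, D a * dm T l h c a Z x
        = (Function.update D l 0 a * qR (T.erase a) (pure h l c) (Function.update Z l 0) x
            * qR (T.erase l) h Z x
          - qR T (pure h l c) (Function.update Z l 0) x
            * (Function.update D l 0 a * qR ((T.erase l).erase a) h Z x))
          / qR (T.erase l) h Z x ^ 2 := by
      intro a ha
      rw [Function.update_of_ne (Finset.ne_of_mem_erase ha), dm]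
      ring
    rw [Finset.sum_congr rfl e, ← Finset.sum_div, Finset.sum_sub_distrib, ← Finset.sum_mul,
      ← Finset.mul_sum]
    ring
  have hf0 : f 0 = m T l h c Z x := by simp [hf]
  have hf1 : f 1 = m T l h c (fun a => Z a + D a) x :=
    m_congr (fun _ _ _ => rfl) (fun a _ hal => by simp [hD', Function.update_of_ne hal]) c
  refine le_of_tendsto (f := slope f 0) (x := nhdsWithin (0 : ℝ) (Set.Ioi 0))
    (hd.tendsto_slope.mono_left (nhdsWithin_mono _ fun s hs => ne_of_gt (Set.mem_Ioi.1 hs))) ?_
  filter_upwards [Ioo_mem_nhdsGT (show (0 : ℝ) < 1 by norm_num)] with s hs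
  have hcv := m_convex (Z := fun a => Z a + D a) (Z' := Z) hl hh h2 h1 hs.1 hs.2 c
  have hfs : f s = m T l h c (fun a => s * (Z a + D a) + (1 - s) * Z a) x :=
    m_congr (fun _ _ _ => rfl) (fun a _ hal => by
      simp [hD', Function.update_of_ne hal]; ring) c
  rw [slope_def_field, sub_zero, hf0, hfs, div_le_iff₀ hs.1]
  nlinarith

end Vale.Agent.P078.Local
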