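import Vale.Agent.P078.Local.Jump.Basic

/-!
# Exact jumps and the triangle inequality

An exact jump at `w` moves `h w` by `a • v` with `∑ v = 0` and `Z w` by the Schur complements. It
keeps `q` and validity, makes every `Φ` affine in `a` and every `W` quadratic in `a`, and the
coefficients obey `|L_lu| ≤ C (√(W_lu W_lw W_wu) + W_lw W_wu)`, `|Q_lu| ≤ C W_lw W_wu`.
-/

namespace Vale.Agent.P078.Local

variable {ι : Type*} [DecidableEq ι] {r : ℕ}

/-- The part of `W_lu` without `w`. -/
noncomputable def Ast (T : Finset ι) (w : ι) (h : ι → Fin r → ℝ) (Z : ι → ℝ) (x : ι → ι → ℂ)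
    (l u : ι) : ℝ :=
  if l = u then Phi (T.erase w) h Z x l ^ 2
  else Phi (T.erase w) h Z x l * Phi (T.erase w) h Z x u
    - qR (((T.erase w).erase l).erase u) h Z x / qR (T.erase w) h Z x

/-- `b_c = ∂_l ∂_u m_wc`. -/
noncomputable def bst (T : Finset ι) (w : ι) (h : ι → Fin r → ℝ) (c : Fin r) (Z : ι → ℝ)
    (x : ι → ι → ℂ) (l u : ι) : ℝ :=
  if l = u then 2 * Phi (T.erase w) h Z x l * dm T w h c l Z x
  else Phi (T.erase w) h Z x l * dm T w h c u Z x + Phi (T.erase w) h Z x u * dm T w h c l Z x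
    - (qR ((T.erase l).erase u) (pure h w c) (Function.update Z w 0) x
        + qR (((T.erase w).erase l).erase u) h Z x * m T w h c Z x) / qR (T.erase w) h Z x

/-- The law after a jump. -/
def jumpH (h : ι → Fin r → ℝ) (w : ι) (a : ℝ) (v : Fin r → ℝ) : ι → Fin r → ℝ :=
  Function.update h w fun c => h w c + a * v c

/-- The field after an exact jump. -/
noncomputable def jumpZ (T : Finset ι) (h : ι → Fin r → ℝ) (Z : ι → ℝ) (x : ι → ι → ℂ) (w : ι)
    (a : ℝ) (v : Fin r → ℝ) : ι → ℝ :=
  Function.update Z w (Z w + a * ∑ c, v c * m T w h c Z x)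

/-- The linear coefficient of `W_lu` under a jump at `w`. -/
noncomputable def jumpL (T : Finset ι) (w : ι) (h : ι → Fin r → ℝ) (Z : ι → ℝ) (x : ι → ι → ℂ)
    (v : Fin r → ℝ) (l u : ι) : ℝ :=
  let t := tw T h Z x w
  if l = w then (if u = w then 0 else (∑ c, v c * dm T w h c u Z x) / t ^ 2)
  else if u = w then (∑ c, v c * dm T w h c l Z x) / t ^ 2
  else (∑ c, v c * bst T w h c Z x l u) / t
    + ((∑ c, v c * dm T w h c l Z x) * (∑ c, h w c * dm T w h c u Z x)
      + (∑ c, h w c * dm T w h c l Z x) * (∑ c, v c * dm T w h c u Z x)) / t ^ 2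

/-- The quadratic coefficient of `W_lu` under a jump at `w`. -/
noncomputable def jumpQ (T : Finset ι) (w : ι) (h : ι → Fin r → ℝ) (Z : ι → ℝ) (x : ι → ι → ℂ)
    (v : Fin r → ℝ) (l u : ι) : ℝ :=
  if l = w ∨ u = w then 0
  else (∑ c, v c * dm T w h c l Z x) * (∑ c, v c * dm T w h c u Z x) / tw T h Z x w ^ 2

variable {T : Finset ι} {h : ι → Fin r → ℝ} {Z : ι → ℝ} {x : ι → ι → ℂ} {l u w : ι}

theorem W_formula (hw : w ∈ T) (_hl : l ∈ T) (hu : u ∈ T) (hwl : w ≠ l) (hwu : w ≠ u)
    (hh : IsLaw T h) (hne : qR (T.erase w) h Z x ≠ 0) (ht : tw T h Z x w ≠ 0) :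
    W T h Z x l u = Ast T w h Z x l u + (∑ c, h w c * bst T w h c Z x l u) / tw T h Z x w
      + (∑ c, h w c * dm T w h c l Z x) * (∑ c, h w c * dm T w h c u Z x)
        / tw T h Z x w ^ 2 := by
  rcases eq_or_ne l u with rfl | hne'
  · rw [W, if_pos rfl, Phi_formula hw hwl hh hne ht, Ast, if_pos rfl]
    have : ∑ c, h w c * bst T w h c Z x l l
        = 2 * Phi (T.erase w) h Z x l * ∑ c, h w c * dm T w h c l Z x := by
      rw [Finset.mul_sum]
      refine Finset.sum_congr rfl fun c _ => ?_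
      rw [bst, if_pos rfl]; ring
    rw [this]
    ring
  · have e : ∑ c, h w c * bst T w h c Z x l u
        = Phi (T.erase w) h Z x l * (∑ c, h w c * dm T w h c u Z x)
          + Phi (T.erase w) h Z x u * (∑ c, h w c * dm T w h c l Z x)
          - ((∑ c, h w c * qR ((T.erase l).erase u) (pure h w c) (Function.update Z w 0) x)
            + qR (((T.erase w).erase l).erase u) h Z x * ∑ c, h w c * m T w h c Z x)
            / qR (T.erase w) h Z x := by
      simp only [Finset.mul_sum, ← Finset.sum_add_distrib, Finset.sum_div,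
        ← Finset.sum_sub_distrib]
      refine Finset.sum_congr rfl fun c _ => ?_
      rw [bst, if_neg hne']
      ring
    have hw' : w ∈ T.erase l := Finset.mem_erase.2 ⟨hwl, hw⟩
    have hlu : qR ((T.erase l).erase u) h Z x
        = Z w * qR (((T.erase w).erase l).erase u) h Z x
          + ∑ c, h w c * qR ((T.erase l).erase u) (pure h w c) (Function.update Z w 0) x := by
      rw [qR_erase_split hw' hwu (hh.mono (Finset.erase_subset _ _)),
        Finset.erase_right_comm (a := l) (b := w)]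
    rw [W_eq_sub hne' (by rw [qR_eq hw hh hne]; exact mul_ne_zero hne ht), Phi_formula hw hwl hh hne ht, Phi_formula hw hwu hh hne ht,
      Ast, if_neg hne', e, hlu, qR_eq hw hh hne, ← tw]
    have hz : Z w = tw T h Z x w + ∑ c, h w c * m T w h c Z x := by simp [tw]
    rw [hz]
    field_simp
    ring

/-- The discriminant bound `b_c² ≤ 4 A d_lc d_uc`. -/
theorem bst_sq_le (hw : w ∈ T) (hl : l ∈ T) (hu : u ∈ T) (hwl : w ≠ l) (hwu : w ≠ u)
    (hh : IsLaw T h) (hx : IsHerm x) (hne : qR (T.erase w) h Z x ≠ 0) (c : Fin r) :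
    bst T w h c Z x l u ^ 2
      ≤ 4 * Ast T w h Z x l u * (dm T w h c l Z x * dm T w h c u Z x) := by
  have key : ∀ s : ℝ, 0 ≤ Ast T w h Z x l u * (s * s) + bst T w h c Z x l u * s
      + dm T w h c l Z x * dm T w h c u Z x := by
    intro s
    rcases eq_or_ne s 0 with rfl | hs
    · have := mul_nonneg (dm_nonneg (Z := Z) hw hl hwl hh hx c)
        (dm_nonneg (Z := Z) hw hu hwu hh hx c)
      simpa using this
    · set g := pure h w c with hg
      set Y := Function.update Z w (m T w h c Z x + s) with hY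
      have hone : ∀ f : Fin r → ℝ, ∑ d, g w d * f d = f c := fun f => by
        rw [Finset.sum_eq_single c (fun d _ hd => by simp [hg, Local.pure, Pi.single_eq_of_ne hd])
          (by simp)]
        simp [hg, Local.pure]
      have hgg : ∀ U : Finset ι, w ∉ U → qR U g Y x = qR U h Z x := fun U hU =>
        qR_congr (fun a ha => by
          simp [hg, Local.pure, Function.update_of_ne (fun he => hU (he ▸ ha) : a ≠ w)])
          fun a ha => by simp [hY, Function.update_of_ne (fun he => hU (he ▸ ha) : a ≠ w)]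
      have hne' : qR (T.erase w) g Y x ≠ 0 := by rwa [hgg _ (Finset.notMem_erase w T)]
      have hm : m T w g c Y x = m T w h c Z x :=
        m_congr (fun a _ ha => by simp [hg, Local.pure, Function.update_of_ne ha])
          (fun a _ ha => by simp [hY, Function.update_of_ne ha]) c
      have ht : tw T g Y x w = s := by
        rw [tw, hone (fun d => m T w g d Y x), hm]
        simp [hY]
      have hpp : pure g w c = g := by simp [hg, Local.pure]
      have hY0 : Function.update Y w 0 = Function.update Z w 0 := by simp [hY]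
      have hd : ∀ b, dm T w g c b Y x = dm T w h c b Z x := by
        intro b
        simp only [dm, hpp, hY0, hgg _ (Finset.notMem_erase w T),
          hgg ((T.erase w).erase b) (fun hmem => Finset.notMem_erase w T
            (Finset.mem_of_mem_erase hmem))]
        rfl
      have hP : ∀ b, Phi (T.erase w) g Y x b = Phi (T.erase w) h Z x b := by
        intro b
        simp only [Phi, hgg _ (Finset.notMem_erase w T),
          hgg ((T.erase w).erase b) (fun hmem => Finset.notMem_erase w T
            (Finset.mem_of_mem_erase hmem))]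
      have h3 : w ∉ ((T.erase w).erase l).erase u := fun hmem =>
        Finset.notMem_erase w T (Finset.mem_of_mem_erase (Finset.mem_of_mem_erase hmem))
      have hA : Ast T w g Y x l u = Ast T w h Z x l u := by
        simp only [Ast, hP, hgg _ (Finset.notMem_erase w T), hgg _ h3]
      have hb : bst T w g c Y x l u = bst T w h c Z x l u := by
        simp only [bst, hP, hd, hm, hpp, hY0, hgg _ (Finset.notMem_erase w T), hgg _ h3]
        rfl
      have hW := W_formula (Z := Y) hw hl hu hwl hwu (hh.pure w c) hne' (by rwa [ht])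
      rw [hone (fun d => bst T w g d Y x l u), hone (fun d => dm T w g d l Y x),
        hone (fun d => dm T w g d u Y x), ht, hA, hb, hd, hd] at hW
      have h0 := mul_nonneg (W_nonneg (h := g) (Z := Y) hl hu (hh.pure w c) hx) (mul_self_nonneg s)
      rw [hW] at h0
      refine h0.trans_eq ?_
      field_simp
  have := discrim_le_zero key
  rw [discrim] at this
  nlinarith

theorem Ast_nonneg (hl : l ∈ T) (hu : u ∈ T) (hwl : w ≠ l) (hwu : w ≠ u) (hh : IsLaw T h)
    (hx : IsHerm x) : 0 ≤ Ast T w h Z x l u := by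
  have := W_nonneg (Z := Z) (T := T.erase w) (l := l) (u := u)
    (Finset.mem_erase.2 ⟨hwl.symm, hl⟩) (Finset.mem_erase.2 ⟨hwu.symm, hu⟩)
    (hh.mono (Finset.erase_subset _ _)) hx
  refine le_of_le_of_eq this ?_
  rcases eq_or_ne l u with rfl | hlu
  · simp [W, Ast]
  · rw [W, Ast, if_neg hlu, if_neg hlu]
    simp only [Phi]
    field_simp

theorem sum_mul_sqrt_le {p a b : Fin r → ℝ} (hp : ∀ c, 0 ≤ p c) (ha : ∀ c, 0 ≤ a c)
    (hb : ∀ c, 0 ≤ b c) :
    ∑ c, p c * Real.sqrt (a c * b c) ≤ Real.sqrt ((∑ c, p c * a c) * ∑ c, p c * b c) := by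
  refine Real.le_sqrt_of_sq_le ?_
  refine Finset.sum_sq_le_sum_mul_sum_of_sq_le_mul _ (fun c _ => mul_nonneg (hp c) (ha c))
    (fun c _ => mul_nonneg (hp c) (hb c)) fun c _ => ?_
  rw [mul_pow, Real.sq_sqrt (mul_nonneg (ha c) (hb c))]
  exact le_of_eq (by ring)

/-- A direction supported on colours with mass at least `h₀`. -/
theorem abs_sum_dir_le {p v a : Fin r → ℝ} {h₀ : ℝ} (h0 : 0 < h₀) (hp : ∀ c, 0 ≤ p c)
    (hv : ∀ c, |v c| ≤ 1) (hsupp : ∀ c, v c ≠ 0 → h₀ ≤ p c) (ha : ∀ c, 0 ≤ a c) :
    |∑ c, v c * a c| ≤ (∑ c, p c * a c) / h₀ := by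
  rw [le_div_iff₀ h0, mul_comm]
  refine (mul_le_mul_of_nonneg_left (Finset.abs_sum_le_sum_abs _ _) h0.le).trans ?_
  rw [Finset.mul_sum]
  refine Finset.sum_le_sum fun c _ => ?_
  rw [abs_mul, abs_of_nonneg (ha c)]
  rcases eq_or_ne (v c) 0 with hv0 | hv0
  · rw [hv0, abs_zero, zero_mul, mul_zero]; exact mul_nonneg (hp c) (ha c)
  · calc h₀ * (|v c| * a c) ≤ p c * (1 * a c) :=
        mul_le_mul (hsupp c hv0) (mul_le_mul_of_nonneg_right (hv c) (ha c))
          (mul_nonneg (abs_nonneg _) (ha c)) (hp c)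
      _ = p c * a c := by ring

section jump

variable {a : ℝ} {v : Fin r → ℝ}

theorem jump_isLaw (hh : IsLaw T h) (hv : ∑ c, v c = 0)
    (hpos : ∀ c, 0 ≤ h w c + a * v c) : IsLaw T (jumpH h w a v) := by
  intro b hb
  rcases eq_or_ne b w with rfl | hne
  · refine ⟨fun c => by simpa [jumpH] using hpos c, ?_⟩
    simp [jumpH, Finset.sum_add_distrib, ← Finset.mul_sum, hv, (hh b hb).2]
  · simp only [jumpH, Function.update_of_ne hne]; exact hh b hb

theorem jump_qR_of_notMem {U : Finset ι} (hU : w ∉ U) :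
    qR U (jumpH h w a v) (jumpZ T h Z x w a v) x = qR U h Z x :=
  qR_congr (fun b hb => by simp [jumpH, Function.update_of_ne (fun he => hU (he ▸ hb) : b ≠ w)])
    fun b hb => by simp [jumpZ, Function.update_of_ne (fun he => hU (he ▸ hb) : b ≠ w)]

theorem jump_m (c : Fin r) :
    m T w (jumpH h w a v) c (jumpZ T h Z x w a v) x = m T w h c Z x :=
  m_congr (fun b _ hb => by simp [jumpH, Function.update_of_ne hb])
    (fun b _ hb => by simp [jumpZ, Function.update_of_ne hb]) c

/-- `t_w` is unchanged. -/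
theorem jump_tw : tw T (jumpH h w a v) (jumpZ T h Z x w a v) x w = tw T h Z x w := by
  simp only [tw, jump_m]
  simp only [jumpH, jumpZ, Function.update_self, add_mul, Finset.sum_add_distrib, mul_assoc,
    ← Finset.mul_sum]
  ring

/-- `q` is unchanged. -/
theorem jump_qR (hw : w ∈ T) (hh : IsLaw T h) (hh' : IsLaw T (jumpH h w a v))
    (hne : qR (T.erase w) h Z x ≠ 0) :
    qR T (jumpH h w a v) (jumpZ T h Z x w a v) x = qR T h Z x := by
  rw [qR_eq hw hh' (by rwa [jump_qR_of_notMem (Finset.notMem_erase w T)]), qR_eq hw hh hne, ← tw,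
    ← tw, jump_tw, jump_qR_of_notMem (Finset.notMem_erase w T)]

/-- Validity is kept. -/
theorem jump_valid (hw : w ∈ T) (hh : IsLaw T h) (hh' : IsLaw T (jumpH h w a v))
    (hval : Valid T h Z x) : Valid T (jumpH h w a v) (jumpZ T h Z x w a v) x := by
  refine (valid_iff_erase hw hh').2 ⟨(valid_congr (fun b hb => ?_) fun b hb => ?_).2
    (hval.erase hh hw), ?_⟩
  · simp [jumpH, Function.update_of_ne (Finset.ne_of_mem_erase hb)]
  · simp [jumpZ, Function.update_of_ne (Finset.ne_of_mem_erase hb)]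
  · have := tw_pos hw hh hval
    rw [← jump_tw (a := a) (v := v), tw] at this
    linarith

theorem jump_dm (c : Fin r) (b : ι) :
    dm T w (jumpH h w a v) c b (jumpZ T h Z x w a v) x = dm T w h c b Z x := by
  have hp : pure (jumpH h w a v) w c = pure h w c := by simp [jumpH, Local.pure]
  have hz : Function.update (jumpZ T h Z x w a v) w 0 = Function.update Z w 0 := by simp [jumpZ]
  simp only [dm, hp, hz, jump_qR_of_notMem (Finset.notMem_erase w T),
    jump_qR_of_notMem (fun hmem : w ∈ (T.erase w).erase b =>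
      Finset.notMem_erase w T (Finset.mem_of_mem_erase hmem))]

theorem jump_Phi_erase (b : ι) :
    Phi (T.erase w) (jumpH h w a v) (jumpZ T h Z x w a v) x b = Phi (T.erase w) h Z x b := by
  simp only [Phi, jump_qR_of_notMem (Finset.notMem_erase w T),
    jump_qR_of_notMem (fun hmem : w ∈ (T.erase w).erase b =>
      Finset.notMem_erase w T (Finset.mem_of_mem_erase hmem))]

theorem jump_sum_dm (b : ι) :
    ∑ c, jumpH h w a v w c * dm T w h c b Z x
      = ∑ c, h w c * dm T w h c b Z x + a * ∑ c, v c * dm T w h c b Z x := by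
  simp only [jumpH, Function.update_self, add_mul, Finset.sum_add_distrib, mul_assoc,
    ← Finset.mul_sum]

/-- Every `Φ` is affine in the jump. -/
theorem jump_Phi (hw : w ∈ T) (_hl : l ∈ T) (hh : IsLaw T h) (hh' : IsLaw T (jumpH h w a v))
    (hval : Valid T h Z x) :
    Phi T (jumpH h w a v) (jumpZ T h Z x w a v) x l = Phi T h Z x l
      + if l = w then 0 else a * ((∑ c, v c * dm T w h c l Z x) / tw T h Z x w) := by
  have hne := ((hval.erase hh hw).pos (hh.mono (Finset.erase_subset _ _))).ne'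
  have hne' : qR (T.erase w) (jumpH h w a v) (jumpZ T h Z x w a v) x ≠ 0 := by
    rwa [jump_qR_of_notMem (Finset.notMem_erase w T)]
  have ht := (tw_pos hw hh hval).ne'
  rcases eq_or_ne l w with rfl | hlw
  · rw [if_pos rfl, Phi_eq_inv hw hh' hne', jump_tw, Phi_eq_inv hw hh hne, add_zero]
  · rw [if_neg hlw, Phi_formula hw hlw.symm hh' hne' (by rwa [jump_tw]),
      Phi_formula hw hlw.symm hh hne ht]
    simp only [jump_dm, jump_Phi_erase, jump_tw]
    rw [jump_sum_dm]
    ring

/-- Every `W` is quadratic in the jump. -/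
theorem jump_W (hw : w ∈ T) (hl : l ∈ T) (hu : u ∈ T) (hh : IsLaw T h)
    (hh' : IsLaw T (jumpH h w a v)) (hval : Valid T h Z x) :
    W T (jumpH h w a v) (jumpZ T h Z x w a v) x l u = W T h Z x l u
      + a * jumpL T w h Z x v l u + a ^ 2 * jumpQ T w h Z x v l u := by
  have hne := ((hval.erase hh hw).pos (hh.mono (Finset.erase_subset _ _))).ne'
  have hne' : qR (T.erase w) (jumpH h w a v) (jumpZ T h Z x w a v) x ≠ 0 := by
    rwa [jump_qR_of_notMem (Finset.notMem_erase w T)]
  have ht := (tw_pos hw hh hval).ne'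
  have ht' : tw T (jumpH h w a v) (jumpZ T h Z x w a v) x w ≠ 0 := by rwa [jump_tw]
  rcases eq_or_ne l w with rfl | hlw
  · rcases eq_or_ne u l with rfl | hul
    · rw [W_self hw hh' hne', W_self hw hh hne, jump_tw]
      simp [jumpL, jumpQ]
    · rw [W_site hw hu hul.symm hh' hne' ht', W_site hw hu hul.symm hh hne ht]
      simp only [jump_dm, jump_tw, jumpL, jumpQ, if_true, hul, if_false, true_or]
      rw [jump_sum_dm]
      ring
  · rcases eq_or_ne u w with rfl | huw
    · rw [W_comm l, W_comm l, W_site hw hl hlw.symm hh' hne' ht', W_site hw hl hlw.symm hh hne ht]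
      simp only [jump_dm, jump_tw, jumpL, jumpQ, if_true, hlw, if_false, or_true]
      rw [jump_sum_dm]
      ring
    · rw [W_formula hw hl hu hlw.symm huw.symm hh' hne' ht',
        W_formula hw hl hu hlw.symm huw.symm hh hne ht]
      have h3 : w ∉ ((T.erase w).erase l).erase u := fun hmem =>
        Finset.notMem_erase w T (Finset.mem_of_mem_erase (Finset.mem_of_mem_erase hmem))
      have hA : Ast T w (jumpH h w a v) (jumpZ T h Z x w a v) x l u = Ast T w h Z x l u := by
        simp only [Ast, jump_Phi_erase, jump_qR_of_notMem (Finset.notMem_erase w T),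
          jump_qR_of_notMem h3]
      have hb : ∀ c, bst T w (jumpH h w a v) c (jumpZ T h Z x w a v) x l u
          = bst T w h c Z x l u := by
        intro c
        have hp : pure (jumpH h w a v) w c = pure h w c := by simp [jumpH, Local.pure]
        have hz : Function.update (jumpZ T h Z x w a v) w 0 = Function.update Z w 0 := by
          simp [jumpZ]
        simp only [bst, jump_Phi_erase, jump_dm, jump_m, hp, hz,
          jump_qR_of_notMem (Finset.notMem_erase w T), jump_qR_of_notMem h3]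
      have hbsum : ∑ c, jumpH h w a v w c * bst T w h c Z x l u
          = ∑ c, h w c * bst T w h c Z x l u + a * ∑ c, v c * bst T w h c Z x l u := by
        simp only [jumpH, Function.update_self, add_mul, Finset.sum_add_distrib, mul_assoc,
          ← Finset.mul_sum]
      simp only [hA, hb, jump_dm, jump_tw, jumpL, jumpQ, hlw, huw,
        or_self, if_false]
      rw [hbsum, jump_sum_dm, jump_sum_dm]
      ring

end jump

section bounds

variable {v : Fin r → ℝ} {h₀ : ℝ}

/-- The triangle bounds for one entry. -/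
theorem jump_coeff_le (hw : w ∈ T) (hl : l ∈ T) (hu : u ∈ T) (hh : IsLaw T h)
    (hval : Valid T h Z x) (h0 : 0 < h₀) (hv : ∀ c, |v c| ≤ 1)
    (hsupp : ∀ c, v c ≠ 0 → h₀ ≤ h w c) :
    |jumpL T w h Z x v l u| ≤ 2 * tw T h Z x w / h₀
        * Real.sqrt (W T h Z x l u * W T h Z x l w * W T h Z x w u)
      + 4 * tw T h Z x w ^ 2 / h₀ * (W T h Z x l w * W T h Z x w u)
    ∧ |jumpQ T w h Z x v l u| ≤ tw T h Z x w ^ 2 / h₀ ^ 2 * (W T h Z x l w * W T h Z x w u) := by
  have hx := hval.herm
  have hne := ((hval.erase hh hw).pos (hh.mono (Finset.erase_subset _ _))).ne'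
  have ht := tw_pos hw hh hval
  have hp : ∀ c, 0 ≤ h w c := (hh w hw).1
  set t := tw T h Z x w with htdef
  have hW : ∀ b ∈ T, 0 ≤ W T h Z x w b := fun b hb => W_nonneg hw hb hh hx
  have hW' : 0 ≤ W T h Z x l w := W_nonneg hl hw hh hx
  have hrhs : 0 ≤ t ^ 2 / h₀ ^ 2 * (W T h Z x l w * W T h Z x w u) :=
    mul_nonneg (by positivity) (mul_nonneg hW' (hW u hu))
  have hrhs' : 0 ≤ 4 * t ^ 2 / h₀ * (W T h Z x l w * W T h Z x w u) :=
    mul_nonneg (by positivity) (mul_nonneg hW' (hW u hu))
  have site : ∀ b ∈ T, b ≠ w → |(∑ c, v c * dm T w h c b Z x) / t ^ 2| ≤ W T h Z x w b / h₀ := by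
    intro b hb hbw
    rw [W_site hw hb hbw.symm hh hne ht.ne', abs_div, abs_of_pos (pow_pos ht 2), div_right_comm]
    exact div_le_div_of_nonneg_right
      (abs_sum_dir_le h0 hp hv hsupp fun c => dm_nonneg hw hb hbw.symm hh hx c) (by positivity)
  by_cases hcase : l = w ∨ u = w
  · refine ⟨?_, by simpa [jumpQ, hcase] using hrhs⟩
    have hsq : ∀ b ∈ T, W T h Z x w b / h₀
        ≤ 2 * t / h₀ * Real.sqrt (W T h Z x w b * W T h Z x w w * W T h Z x w b) := by
      intro b hb
      rw [W_self hw hh hne, show W T h Z x w b * (1 / t ^ 2) * W T h Z x w b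
        = (W T h Z x w b / t) ^ 2 by ring, Real.sqrt_sq (div_nonneg (hW b hb) ht.le)]
      rw [show 2 * t / h₀ * (W T h Z x w b / t) = 2 * (W T h Z x w b / h₀) by field_simp]
      linarith [div_nonneg (hW b hb) h0.le]
    rcases eq_or_ne l w with rfl | hlw
    · rcases eq_or_ne u l with rfl | hul
      · simp only [jumpL, if_true, abs_zero]
        positivity
      · simp only [jumpL, if_true, if_neg hul]
        refine (site u hu hul).trans (le_add_of_le_of_nonneg ((hsq u hu).trans (le_of_eq ?_)) hrhs')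
        congr 2
    · obtain rfl : u = w := hcase.resolve_left hlw
      simp only [jumpL, if_neg hlw, if_true]
      refine (site l hl hlw).trans (le_add_of_le_of_nonneg ((hsq l hl).trans (le_of_eq ?_)) hrhs')
      rw [W_comm l u, mul_right_comm]
  simp only [not_or] at hcase
  obtain ⟨hlw, huw⟩ := hcase
  have hdl := fun c => dm_nonneg (Z := Z) hw hl (Ne.symm hlw) hh hx c
  have hdu := fun c => dm_nonneg (Z := Z) hw hu (Ne.symm huw) hh hx c
  set βl := ∑ c, h w c * dm T w h c l Z x with hβldef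
  set βu := ∑ c, h w c * dm T w h c u Z x with hβudef
  set A := Ast T w h Z x l u
  have hA : 0 ≤ A := Ast_nonneg hl hu (Ne.symm hlw) (Ne.symm huw) hh hx
  have hβl : 0 ≤ βl := Finset.sum_nonneg fun c _ => mul_nonneg (hp c) (hdl c)
  have hβu : 0 ≤ βu := Finset.sum_nonneg fun c _ => mul_nonneg (hp c) (hdu c)
  have hWlw : W T h Z x l w = βl / t ^ 2 := by
    rw [W_comm, W_site hw hl (Ne.symm hlw) hh hne ht.ne']
  have hWwu : W T h Z x w u = βu / t ^ 2 := W_site hw hu (Ne.symm huw) hh hne ht.ne'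
  have hsl := abs_sum_dir_le h0 hp hv hsupp hdl
  have hsu := abs_sum_dir_le h0 hp hv hsupp hdu
  rw [← hβldef] at hsl
  rw [← hβudef] at hsu
  have hb : ∀ c, |bst T w h c Z x l u|
      ≤ 2 * Real.sqrt A * Real.sqrt (dm T w h c l Z x * dm T w h c u Z x) := by
    intro c
    refine abs_le_of_sq_le_sq ?_ (by positivity)
    rw [mul_pow, mul_pow, Real.sq_sqrt hA, Real.sq_sqrt (mul_nonneg (hdl c) (hdu c))]
    have := bst_sq_le (Z := Z) hw hl hu (Ne.symm hlw) (Ne.symm huw) hh hx hne c
    linarith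
  set s := Real.sqrt (βl * βu) with hs
  have hs2 : s ^ 2 = βl * βu := Real.sq_sqrt (mul_nonneg hβl hβu)
  have hs0 : 0 ≤ s := Real.sqrt_nonneg _
  have hmix : |∑ c, h w c * bst T w h c Z x l u| ≤ 2 * Real.sqrt A * s := by
    refine (Finset.abs_sum_le_sum_abs _ _).trans ((Finset.sum_le_sum fun c _ => ?_).trans
      ((Finset.mul_sum _ _ (2 * Real.sqrt A)).ge.trans
        (mul_le_mul_of_nonneg_left (sum_mul_sqrt_le hp hdl hdu) (by positivity))))
    rw [abs_mul, abs_of_nonneg (hp c)]
    linarith [mul_le_mul_of_nonneg_left (hb c) (hp c)]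
  have hdir : |∑ c, v c * bst T w h c Z x l u| ≤ 2 * Real.sqrt A * s / h₀ := by
    refine (Finset.abs_sum_le_sum_abs _ _).trans ((Finset.sum_le_sum (g := fun c =>
      2 * Real.sqrt A * (|v c| * Real.sqrt (dm T w h c l Z x * dm T w h c u Z x))) fun c _ => ?_).trans
        ?_)
    · rw [abs_mul]
      linarith [mul_le_mul_of_nonneg_left (hb c) (abs_nonneg (v c))]
    · rw [← Finset.mul_sum, mul_div_assoc]
      refine mul_le_mul_of_nonneg_left ?_ (by positivity)
      have h1 := abs_sum_dir_le (v := fun c => |v c|) h0 hp (fun c => by simpa using hv c)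
        (fun c hc => hsupp c fun h' => hc (by simp [h']))
        fun c => Real.sqrt_nonneg (dm T w h c l Z x * dm T w h c u Z x)
      exact (le_abs_self _).trans (h1.trans
        (div_le_div_of_nonneg_right (sum_mul_sqrt_le hp hdl hdu) h0.le))
  have hsA : Real.sqrt A ≤ Real.sqrt (W T h Z x l u) + s / t := by
    have hWf := W_formula (Z := Z) hw hl hu (Ne.symm hlw) (Ne.symm huw) hh hne ht.ne'
    rw [← hβldef, ← hβudef] at hWf
    have hlow : (Real.sqrt A - s / t) ^ 2 ≤ W T h Z x l u := by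
      rw [hWf, sub_sq, Real.sq_sqrt hA, div_pow, hs2]
      have := (abs_le.1 hmix).1
      have := div_le_div_of_nonneg_right this ht.le
      rw [neg_div, mul_div_assoc] at this
      linarith
    have := Real.sqrt_le_sqrt hlow
    rw [Real.sqrt_sq_eq_abs] at this
    linarith [le_abs_self (Real.sqrt A - s / t)]
  have hsWW : Real.sqrt (W T h Z x l u * W T h Z x l w * W T h Z x w u)
      = Real.sqrt (W T h Z x l u) * (s / t ^ 2) := by
    rw [mul_assoc, Real.sqrt_mul (W_nonneg hl hu hh hx), hWlw, hWwu,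
      show βl / t ^ 2 * (βu / t ^ 2) = (s / t ^ 2) ^ 2 by rw [div_pow, hs2]; ring,
      Real.sqrt_sq (by positivity)]
  have hprod : W T h Z x l w * W T h Z x w u = s ^ 2 / t ^ 4 := by
    rw [hWlw, hWwu, hs2]; ring
  constructor
  · simp only [jumpL, if_neg hlw, if_neg huw]
    rw [← htdef, ← hβldef, ← hβudef, hsWW, hprod]
    have h1 : |(∑ c, v c * bst T w h c Z x l u) / t|
        ≤ 2 * (Real.sqrt (W T h Z x l u) + s / t) * s / h₀ / t := by
      rw [abs_div, abs_of_pos ht]
      refine div_le_div_of_nonneg_right (hdir.trans ?_) ht.le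
      exact div_le_div_of_nonneg_right (by nlinarith) h0.le
    have h2 : |((∑ c, v c * dm T w h c l Z x) * βu + βl * ∑ c, v c * dm T w h c u Z x) / t ^ 2|
        ≤ 2 * s ^ 2 / h₀ / t ^ 2 := by
      rw [abs_div, abs_of_pos (pow_pos ht 2)]
      refine div_le_div_of_nonneg_right ((abs_add_le _ _).trans ?_) (by positivity)
      rw [abs_mul, abs_mul, abs_of_nonneg hβl, abs_of_nonneg hβu, hs2]
      have e1 := mul_le_mul_of_nonneg_right hsl hβu
      have e2 := mul_le_mul_of_nonneg_left hsu hβl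
      rw [div_mul_eq_mul_div] at e1
      rw [← mul_div_assoc] at e2
      rw [show 2 * (βl * βu) / h₀ = βl * βu / h₀ + βl * βu / h₀ by ring]
      linarith
    refine (abs_add_le _ _).trans ((add_le_add h1 h2).trans (le_of_eq ?_))
    field_simp
    ring
  · simp only [jumpQ, if_neg (not_or.2 ⟨hlw, huw⟩)]
    rw [← htdef, hprod, hs2, abs_div, abs_of_pos (pow_pos ht 2), abs_mul]
    refine (div_le_div_of_nonneg_right (mul_le_mul hsl hsu (abs_nonneg _)
      (div_nonneg hβl h0.le)) (by positivity)).trans (le_of_eq ?_)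
    field_simp

/-- The triangle bounds summed over a row. -/
theorem jump_row_le (hw : w ∈ T) (hl : l ∈ T) (hh : IsLaw T h) (hval : Valid T h Z x)
    (h0 : 0 < h₀) (hv : ∀ c, |v c| ≤ 1) (hsupp : ∀ c, v c ≠ 0 → h₀ ≤ h w c) :
    |∑ u ∈ T, jumpL T w h Z x v l u| ≤ 2 * tw T h Z x w / h₀
        * Real.sqrt (Irow T h Z x l * W T h Z x l w * Irow T h Z x w)
      + 4 * tw T h Z x w ^ 2 / h₀ * (W T h Z x l w * Irow T h Z x w)
    ∧ |∑ u ∈ T, jumpQ T w h Z x v l u|
      ≤ tw T h Z x w ^ 2 / h₀ ^ 2 * (W T h Z x l w * Irow T h Z x w) := by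
  have hx := hval.herm
  have ht := tw_pos hw hh hval
  constructor
  · refine (Finset.abs_sum_le_sum_abs _ _).trans ((Finset.sum_le_sum fun u hu =>
      (jump_coeff_le hw hl hu hh hval h0 hv hsupp).1).trans ?_)
    rw [Finset.sum_add_distrib, ← Finset.mul_sum, ← Finset.mul_sum, ← Finset.mul_sum, Irow, Irow]
    refine add_le_add (mul_le_mul_of_nonneg_left ?_ (by positivity)) le_rfl
    refine Real.le_sqrt_of_sq_le ?_
    rw [Finset.sum_mul]
    refine Finset.sum_sq_le_sum_mul_sum_of_sq_le_mul T (fun u hu => mul_nonneg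
      (W_nonneg hl hu hh hx) (W_nonneg hl hw hh hx)) (fun u hu => W_nonneg hw hu hh hx)
      fun u hu => ?_
    rw [Real.sq_sqrt (mul_nonneg (mul_nonneg (W_nonneg hl hu hh hx) (W_nonneg hl hw hh hx))
      (W_nonneg hw hu hh hx))]
  · refine (Finset.abs_sum_le_sum_abs _ _).trans ((Finset.sum_le_sum fun u hu =>
      (jump_coeff_le hw hl hu hh hval h0 hv hsupp).2).trans (le_of_eq ?_))
    rw [← Finset.mul_sum, ← Finset.mul_sum, Irow]

end bounds

/-- `h_lc ∑_u |∂_u m_lc| ≤ t_l² I_l`. -/
theorem sum_dm_le (hl : l ∈ T) (hh : IsLaw T h) (hval : Valid T h Z x) (c : Fin r) :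
    h l c * ∑ u ∈ T.erase l, dm T l h c u Z x ≤ tw T h Z x l ^ 2 * Irow T h Z x l := by
  have hx := hval.herm
  have hne := ((hval.erase hh hl).pos (hh.mono (Finset.erase_subset _ _))).ne'
  have ht := tw_pos hl hh hval
  rw [Irow, Finset.mul_sum, Finset.mul_sum]
  refine (Finset.sum_le_sum fun u hu => ?_).trans (Finset.sum_le_sum_of_subset_of_nonneg
    (Finset.erase_subset l T) fun u hu _ => mul_nonneg (sq_nonneg _) (W_nonneg hl hu hh hx))
  obtain ⟨hul, huT⟩ := Finset.mem_erase.1 hu
  rw [W_site hl huT hul.symm hh hne ht.ne', mul_div_cancel₀ _ (pow_ne_zero 2 ht.ne')]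
  exact Finset.single_le_sum (f := fun c => h l c * dm T l h c u Z x)
    (fun d _ => mul_nonneg ((hh l hl).1 d) (dm_nonneg hl huT hul.symm hh hx d)) (Finset.mem_univ c)

end Vale.Agent.P078.Local
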